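import Vale.Agent.P219.CH.Core.Defs

/-!
P219, general kernels: the radial field may depend on the cosine at its base point,
`X x y = ψ (r², r c) V x y` with `c` the inward cosine at `x`; only the symmetrised kernel has
to be nonnegative.
-/

namespace Vale.Agent.P219.CH.Gen

open MeasureTheory Set Filter Topology Vale.Agent.P219.CH.Core
open scoped ContDiff

noncomputable section

variable {n : ℕ}

/-- `∂ψ / ∂s` at `(r², r c)`. -/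
def dS (ψ : ℝ → ℝ → ℝ) (r c : ℝ) : ℝ :=
  fderiv ℝ (Function.uncurry ψ) (r ^ 2, r * c) (1, 0)

/-- `∂ψ / ∂p` at `(r², r c)`. -/
def dP (ψ : ℝ → ℝ → ℝ) (r c : ℝ) : ℝ :=
  fderiv ℝ (Function.uncurry ψ) (r ^ 2, r * c) (0, 1)

/-- The lower bound of the tangential divergence: `K = r ψ (r², r c)` gives
`(1-d²) K_r + (K/r) (n-2+d²) - |K_c| |d| √(1-c²) √(1-d²) / r`. -/
def geom (n : ℕ) (ψ : ℝ → ℝ → ℝ) (r c d : ℝ) : ℝ :=
  (1 - d ^ 2) * (ψ (r ^ 2) (r * c) + 2 * r ^ 2 * dS ψ r c + r * c * dP ψ r c) +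
    ψ (r ^ 2) (r * c) * ((n : ℝ) - 2 + d ^ 2) -
    |dP ψ r c| * r * |d| * Real.sqrt (1 - c ^ 2) * Real.sqrt (1 - d ^ 2)

/-- The kernel of the field at scale one; `d` is the cosine at `y`, `c` the one at `x`. -/
def kernel (n : ℕ) (a : ℝ) (ψ : ℝ → ℝ → ℝ) (r c d : ℝ) : ℝ :=
  a + geom n ψ r c d - ((n : ℝ) - 1) * (r * ψ (r ^ 2) (r * c) * d)

/-- A certificate with a general kernel. -/
structure Cert (n : ℕ) where
  /-- The coefficient of the squared area. -/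
  a : ℝ
  a_nonneg : 0 ≤ a
  /-- The price of an end point with given cosine. -/
  g : ℝ → ℝ
  g_cont : Continuous g
  g_nonpos : ∀ c ∈ Icc (0 : ℝ) 1, g c ≤ 0
  /-- For every `σ` a regular field with nonnegative symmetrised kernel and almost sharp chord
  inequality. -/
  approx : ∀ σ : ℝ, 0 < σ → ∃ ψ : ℝ → ℝ → ℝ, ContDiff ℝ 1 (Function.uncurry ψ) ∧
    (∀ s p, 0 ≤ s → 0 ≤ ψ s p) ∧
    (∀ r c d, 0 ≤ r → |c| ≤ 1 → |d| ≤ 1 → 0 ≤ kernel n a ψ r c d + kernel n a ψ r d c) ∧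
    ∀ r c d, 0 < r → 0 < c → c ≤ 1 → 0 < d → d ≤ 1 →
      r - σ + g c + g d ≤
        r ^ (n - 1) * (kernel n a ψ r c d + kernel n a ψ r d c) / (2 * c * d)
  /-- Equality for the unit ball of Euclidean space. -/
  balance : ∀ (hn : 0 < n), a * n * omega n = omega n + 2 * n * gInt hn g

/-- The chord bound for kernels with both cosines. -/
def ChordStmt (n : ℕ) : Prop := ∀ (hn : 0 < n) (G : Coeff n), IsCH G → ∀ Γ : Geo G,
  ∀ (g : ℝ → ℝ), Continuous g → (∀ c ∈ Icc (0 : ℝ) 1, g c ≤ 0) →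
  ∀ (q : ℝ → ℝ → ℝ → ℝ), Continuous (fun z : ℝ × ℝ × ℝ => q z.1 z.2.1 z.2.2) →
    (∀ r c d, 0 ≤ r → |c| ≤ 1 → |d| ≤ 1 → 0 ≤ q r c d + q r d c) →
  ∀ σ : ℝ, 0 < σ →
    (∀ r c d, 0 < r → 0 < c → c ≤ 1 → 0 < d → d ≤ 1 →
      r - σ + g c + g d ≤ r ^ (n - 1) * (q r c d + q r d c) / (2 * c * d)) →
  ∀ f : E n → ℝ, ContDiff ℝ 1 f → HasCompactSupport f → (∀ x, f x ∈ Icc (0 : ℝ) 1) →
    (n * omega n) * (∫ x, f x ^ 2 ∂vol G) +
      (2 * n * gInt hn g - σ * (n * omega n)) * tvar G f ≤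
      ∫ x, (∫ y, q (Γ.dist x y) (cosAt Γ f y x) (cosAt Γ f x y) ∂surf G f) ∂surf G f

/-- The averaged field `y ↦ ∫ ψ (dist², dist cos) V x y` over the level sets of `f`. -/
def AvgFieldStmt (n : ℕ) : Prop := ∀ G : Coeff n, IsCH G → ∀ (Γ : Geo G) (ψ : ℝ → ℝ → ℝ),
  ContDiff ℝ 1 (Function.uncurry ψ) → (∀ s p, 0 ≤ s → 0 ≤ ψ s p) →
  ∀ (o : E n) (R A : ℝ), 0 < R → ∀ τ : ℝ, 0 < τ →
  ∃ (K : Set (E n)) (M : ℝ) (η : ℝ → ℝ) (t₀ B : ℝ), IsCompact K ∧ Tendsto η (𝓝 0) (𝓝 0) ∧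
    0 < t₀ ∧ ∀ f : E n → ℝ, ContDiff ℝ 1 f → tsupport f ⊆ gball Γ o R →
      (∀ x, f x ∈ Icc (0 : ℝ) 1) → tvar G f ≤ A → ∃ X, FieldBound K M η X ∧
        (∀ x, |divg G X x| ≤ B) ∧
        (∀ t, 0 < t → t ≤ t₀ → tsupport (fun x => f (x + t • X x)) ⊆ gball Γ o R) ∧
        (∫ x, (∫ y, geom n ψ (Γ.dist x y) (cosAt Γ f y x) (cosAt Γ f x y) ∂surf G f)
            ∂surf G f) ≤ (∫ y, divTan G f X y ∂surf G f) ∧
        |(∫ y, f y * divg G X y ∂vol G) -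
            ∫ x, (∫ y, Γ.dist x y * ψ (Γ.dist x y ^ 2) (Γ.dist x y * cosAt Γ f y x) *
              cosAt Γ f x y ∂surf G f) ∂surf G f| ≤ τ

/-- The core theorem. -/
def CoreStmt (n : ℕ) : Prop := 5 ≤ n → GeoStmt n → Cert n → SobolevStmt n

end

end Vale.Agent.P219.CH.Gen
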