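import Vale.Agent.P219.CH.Core.Chord
import Vale.Agent.P219.CH.Gen.Defs

/-!
P219: the chord bound for kernels depending on both cosines. Only the kernel is new; the matched
pairs, the end points and the polar comparison are those of `Core/Chord`.
-/

namespace Vale.Agent.P219.CH.Gen

open MeasureTheory Set Filter Topology Vale.Agent.P219.CH.Core Vale.Agent.P219.CH.Core.Chord
open scoped ENNReal

noncomputable section

variable {n : ℕ} {G : Coeff n}

namespace Chord

variable (Γ : Geo G) {f : E n → ℝ}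

theorem dist_comm' (x y : E n) : Γ.dist y x = Γ.dist x y := by
  have h := dist_back Γ (x, Γ.logm x y)
  simp only [Γ.exp_logm] at h
  rw [h, Geo.dist]

/-- The symmetrised kernel of a pair of points. -/
def sym (f : E n → ℝ) (q : ℝ → ℝ → ℝ → ℝ) (x y : E n) : ℝ :=
  (q (Γ.dist x y) (cosAt Γ f y x) (cosAt Γ f x y) +
    q (Γ.dist x y) (cosAt Γ f x y) (cosAt Γ f y x)) / 2

/-- The symmetrised kernel in the tangent bundle. -/
def symDens (f : E n → ℝ) (q : ℝ → ℝ → ℝ → ℝ) (p : E n × E n) : ℝ≥0∞ :=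
  ENNReal.ofReal (gradn G f p.1) * ENNReal.ofReal (gradn G f (Γ.flow 1 p).1) *
    ENNReal.ofReal (sym Γ f q p.1 (Γ.flow 1 p).1)

/-- Polar coordinates at the first point of a pair. -/
theorem lintegral_pairs_le (hG : IsMetric G) (hf : ContDiff ℝ 1 f)
    [SFinite (surf G f)] {T : E n × E n → ℝ≥0∞} (hTm : Measurable T) :
    Measurable (fun p : E n × E n => ENNReal.ofReal (gradn G f p.1) *
        ENNReal.ofReal (gradn G f (Γ.flow 1 p).1) * T (p.1, (Γ.flow 1 p).1)) ∧
      ∫⁻ p, ENNReal.ofReal (gradn G f p.1) * ENNReal.ofReal (gradn G f (Γ.flow 1 p).1) *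
          T (p.1, (Γ.flow 1 p).1) ∂liouville G ≤
        ∫⁻ x, (∫⁻ y, T (x, y) ∂surf G f) ∂surf G f := by
  have hgm := measurable_gradn hG hf
  have hfl : Measurable fun p : E n × E n => (Γ.flow 1 p).1 := (measurable_flow Γ 1).fst
  have hFpm : Measurable (fun p : E n × E n => ENNReal.ofReal (gradn G f p.1) *
      ENNReal.ofReal (gradn G f (Γ.flow 1 p).1) * T (p.1, (Γ.flow 1 p).1)) :=
    (((hgm.comp measurable_fst).ennreal_ofReal).mul (hgm.comp hfl).ennreal_ofReal).mul
      (hTm.comp (measurable_fst.prodMk hfl))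
  set μ := surf G f with hμ
  refine ⟨hFpm, ?_⟩
  have hsurf : ∀ F : E n → ℝ≥0∞, Measurable F →
      ∫⁻ y, F y ∂μ = ∫⁻ y, ENNReal.ofReal (gradn G f y) * F y ∂vol G := fun F hF => by
    rw [hμ]
    exact lintegral_withDensity_eq_lintegral_mul _ hgm.ennreal_ofReal hF
  have hvol : ∀ F : E n → ℝ≥0∞, Measurable F →
      ∫⁻ y, F y ∂vol G = ∫⁻ y, ENNReal.ofReal (dens G y) * F y := fun F hF =>
    lintegral_withDensity_eq_lintegral_mul _ (measurable_dens hG).ennreal_ofReal hF
  rw [lintegral_liouville hG hFpm, hsurf _ hTm.lintegral_prod_right',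
    hvol (fun y => ENNReal.ofReal (gradn G f y) * ∫⁻ z, T (y, z) ∂μ)
      (hgm.ennreal_ofReal.mul hTm.lintegral_prod_right')]
  refine lintegral_mono fun x => ?_
  rw [hsurf (fun z => T (x, z)) (hTm.comp measurable_prodMk_left)]
  refine le_trans (le_of_eq ?_) (mul_le_mul_right (mul_le_mul_right (Γ.polar x _
    (hgm.ennreal_ofReal.mul (hTm.comp measurable_prodMk_left))) _) _)
  rw [← lintegral_const_mul' _ _ ENNReal.ofReal_ne_top,
    ← lintegral_const_mul' _ _ ENNReal.ofReal_ne_top]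
  refine lintegral_congr fun v => ?_
  simp only [Pi.mul_apply, Function.comp_apply]
  rw [pow_two (dens G x), ENNReal.ofReal_mul (hG.dens_pos x).le]
  ring


/-- The double surface integral dominates the integral over the tangent bundle. -/
theorem lintegral_symDens_le (hG : IsMetric G) (hf : ContDiff ℝ 1 f)
    (hsupp : HasCompactSupport f) {q : ℝ → ℝ → ℝ → ℝ}
    (hq : Continuous fun z : ℝ × ℝ × ℝ => q z.1 z.2.1 z.2.2)
    (hq0 : ∀ r c d, 0 ≤ r → |c| ≤ 1 → |d| ≤ 1 → 0 ≤ q r c d + q r d c) :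
    Measurable (symDens Γ f q) ∧
      0 ≤ ∫ x, (∫ y, q (Γ.dist x y) (cosAt Γ f y x) (cosAt Γ f x y) ∂surf G f) ∂surf G f ∧
      ∫⁻ p, symDens Γ f q p ∂liouville G ≤ ENNReal.ofReal
        (∫ x, (∫ y, q (Γ.dist x y) (cosAt Γ f y x) (cosAt Γ f x y) ∂surf G f) ∂surf G f) := by
  have hgm := measurable_gradn hG hf
  set μ := surf G f with hμ
  have hfin : IsFiniteMeasure μ :=
    isFiniteMeasure_withDensity_ofReal (integrable_gradn hG hf hsupp).hasFiniteIntegral
  have hμs : ∀ᵐ x ∂μ, x ∈ tsupport f := by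
    rw [hμ, surf, ae_withDensity_iff (f := fun x => ENNReal.ofReal (gnorm G x (grad G f x)))
      hgm.ennreal_ofReal]
    refine ae_of_all _ fun x hx => ?_
    by_contra h
    refine hx ?_
    have h' : fderiv ℝ f x = 0 := by
      by_contra hne
      exact h (tsupport_fderiv_subset ℝ (subset_tsupport _ hne))
    simp [grad, h', gnorm]
  set J : E n × E n → ℝ :=
    fun p => q (Γ.dist p.1 p.2) (cosAt Γ f p.2 p.1) (cosAt Γ f p.1 p.2) with hJ
  have hcm := measurable_cosAt Γ hG hf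
  have hJm : Measurable J := hq.measurable.comp
    ((continuous_dist Γ hG).measurable.prodMk ((hcm.comp measurable_swap).prodMk hcm))
  obtain ⟨D, hD⟩ := (hsupp.isCompact.prod hsupp.isCompact).exists_bound_of_continuousOn
    (continuous_dist Γ hG).continuousOn
  obtain ⟨B, hB⟩ := ((isCompact_Icc : IsCompact (Icc (0 : ℝ) D)).prod
    ((isCompact_Icc : IsCompact (Icc (-1 : ℝ) 1)).prod
      (isCompact_Icc : IsCompact (Icc (-1 : ℝ) 1)))).exists_bound_of_continuousOn hq.continuousOn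
  have hprod : ∀ᵐ p ∂μ.prod μ, p.1 ∈ tsupport f ∧ p.2 ∈ tsupport f :=
    (Measure.quasiMeasurePreserving_fst.ae hμs).and
      (Measure.quasiMeasurePreserving_snd.ae hμs)
  have hJi : Integrable J (μ.prod μ) :=
    Integrable.of_bound hJm.aestronglyMeasurable B (hprod.mono fun p hp =>
      hB (Γ.dist p.1 p.2, cosAt Γ f p.2 p.1, cosAt Γ f p.1 p.2)
        ⟨⟨gnorm_nonneg _ _ _, le_trans (le_abs_self _) (hD p ⟨hp.1, hp.2⟩)⟩,
          abs_le.1 (abs_cosAt_le Γ hG _ _), abs_le.1 (abs_cosAt_le Γ hG _ _)⟩)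
  set I := ∫ x, (∫ y, q (Γ.dist x y) (cosAt Γ f y x) (cosAt Γ f x y) ∂μ) ∂μ
  have hIJ : I = ∫ p, J p ∂μ.prod μ := (integral_prod J hJi).symm
  set S : E n × E n → ℝ := fun p => sym Γ f q p.1 p.2 with hS
  have hSe : S = fun p => (J p + J p.swap) * (1 / 2) := by
    funext p
    simp only [hS, hJ, sym, Prod.fst_swap, Prod.snd_swap, dist_comm' Γ p.1 p.2]
    ring
  have hJs : Integrable (fun p => J p.swap) (μ.prod μ) := hJi.swap
  have hSi : Integrable S (μ.prod μ) := hSe ▸ (hJi.add hJs).mul_const _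
  have hS0 : ∀ p, 0 ≤ S p := fun p => div_nonneg (hq0 _ _ _ (gnorm_nonneg _ _ _)
    (abs_cosAt_le Γ hG _ _) (abs_cosAt_le Γ hG _ _)) zero_le_two
  have hIS : I = ∫ p, S p ∂μ.prod μ := by
    rw [hSe, integral_mul_const, integral_add hJi hJs, integral_prod_swap J, hIJ]
    ring
  have hSm : Measurable S := hSe ▸ (hJm.add (hJm.comp measurable_swap)).mul_const _
  set T : E n × E n → ℝ≥0∞ := fun p => ENNReal.ofReal (S p) with hT
  have hTm : Measurable T := hSm.ennreal_ofReal
  have hIl : ENNReal.ofReal I = ∫⁻ x, (∫⁻ y, T (x, y) ∂μ) ∂μ := by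
    rw [hIS, ofReal_integral_eq_lintegral_ofReal hSi (ae_of_all _ hS0),
      lintegral_prod _ hTm.aemeasurable]
  obtain ⟨hm, hle⟩ := lintegral_pairs_le Γ hG hf hTm
  exact ⟨hm, hIS ▸ integral_nonneg hS0, hle.trans_eq hIl.symm⟩

/-- The chord hypothesis along one geodesic. -/
theorem pair_le (hG : IsMetric G) (hn : 0 < n) {g : ℝ → ℝ}
    (hg0 : ∀ c ∈ Icc (0 : ℝ) 1, g c ≤ 0) {q : ℝ → ℝ → ℝ → ℝ}
    (hq0 : ∀ r c d, 0 ≤ r → |c| ≤ 1 → |d| ≤ 1 → 0 ≤ q r c d + q r d c) {σ : ℝ} (hσ : 0 < σ)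
    (hchord : ∀ r c d, 0 < r → 0 < c → c ≤ 1 → 0 < d → d ≤ 1 →
      r - σ + g c + g d ≤ r ^ (n - 1) * (q r c d + q r d c) / (2 * c * d))
    (p : E n × E n) (hp : p.2 ≠ 0) :
    pairAt Γ f p 0 1 * ENNReal.ofReal ((gnorm G p.1 p.2)⁻¹ ^ n / n) ≤
      symDens Γ f q p * ENNReal.ofReal (1 / n) +
        pairAt Γ f p 0 1 * endWeight G f σ g (-1) p +
        pairAt Γ f (Γ.flow 1 p) (-1) 0 * endWeight G f σ g 1 (Γ.flow 1 p) := by
  have hn' : (0 : ℝ) < n := Nat.cast_pos.2 hn
  set A : E n × E n → ℝ≥0∞ := fun p => pairAt Γ f p 0 1 with hA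
  show A p * _ ≤ _ + A p * _ + _
  by_cases hM : ((0 : ℝ), (1 : ℝ)) ∈ matched (along Γ f p)
  swap
  · rw [hA]
    simp only [pairAt]
    rw [indicator_of_notMem (show ((0 : ℝ), (1 : ℝ)) ∉ {q | q ∈ matched (along Γ f p)} from hM),
      zero_mul]
    exact zero_le
  have hAe : A p = ENNReal.ofReal (rate Γ f p 0) * ENNReal.ofReal (-rate Γ f p 1) :=
    indicator_of_mem (show ((0 : ℝ), (1 : ℝ)) ∈ {q | q ∈ matched (along Γ f p)} from hM) _
  rcases le_or_gt (rate Γ f p 0) 0 with h0 | h0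
  · rw [hAe, ENNReal.ofReal_eq_zero.2 h0, zero_mul, zero_mul]; exact zero_le
  rcases le_or_gt 0 (rate Γ f p 1) with h1 | h1
  · rw [hAe, ENNReal.ofReal_eq_zero.2 (neg_nonpos.2 h1), mul_zero, zero_mul]; exact zero_le
  set r := gnorm G p.1 p.2 with hrdef
  set a := gradn G f p.1 with hadef
  set b := gradn G f (Γ.flow 1 p).1 with hbdef
  set c := -cosVel G f p with hcdef
  set d := cosVel G f (Γ.flow 1 p) with hddef
  have hr : 0 < r := hG.gnorm_pos hp
  have e0 : rate Γ f p 0 = a * r * c := by rw [rate_zero hG]; ring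
  have e1 : -rate Γ f p 1 = b * r * d := by rw [rate_eq hG]; ring
  have ha : 0 ≤ a := gnorm_nonneg _ _ _
  have hb : 0 ≤ b := gnorm_nonneg _ _ _
  have hc : 0 < c := by
    rcases ha.lt_or_eq with h | h
    · exact (pos_iff_pos_of_mul_pos (e0 ▸ h0)).1 (mul_pos h hr)
    · rw [e0, ← h] at h0; simp at h0
  have hd : 0 < d := by
    rcases hb.lt_or_eq with h | h
    · exact (pos_iff_pos_of_mul_pos (e1 ▸ neg_pos.2 h1)).1 (mul_pos h hr)
    · have := neg_pos.2 h1; rw [e1, ← h] at this; simp at this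
  have hc1 : c ≤ 1 := (neg_le_abs _).trans (abs_cosVel_le hG p)
  have hd1 : d ≤ 1 := (le_abs_self _).trans (abs_cosVel_le hG _)
  have hreal := pair_real (n := n) hn hr ha hb hc hd (hchord r c d hr hc hc1 hd hd1)
  have hpair : pairAt Γ f (Γ.flow 1 p) (-1) 0 = A p := by
    rw [pairAt_flow, neg_add_cancel, zero_add]
  have hQ : sym Γ f q p.1 (Γ.flow 1 p).1 = (q r c d + q r d c) / 2 := by
    rw [sym, dist_fwd, cosAt_fwd, cosAt_back]
  have hq2 : 0 ≤ q r c d + q r d c :=
    hq0 r c d hr.le (abs_le.2 ⟨by linarith, hc1⟩) (abs_le.2 ⟨by linarith, hd1⟩)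
  have hgc : 0 ≤ σ / 2 - g c := by linarith [hg0 c ⟨hc.le, hc1⟩]
  have hgd : 0 ≤ σ / 2 - g d := by linarith [hg0 d ⟨hd.le, hd1⟩]
  simp only [symDens, endWeight, hQ, hpair, price, Γ.flow_speed,
    ← hrdef, ← hadef, ← hbdef, neg_one_mul, one_mul, ← hcdef, ← hddef, hAe, e0, e1]
  have p1 : 0 ≤ a * r * c := by positivity
  have p2 : 0 ≤ b * r * d := by positivity
  simp only [← ENNReal.ofReal_mul' (show 0 ≤ r⁻¹ by positivity),
    ← ENNReal.ofReal_mul' (show 0 ≤ r⁻¹ ^ n / n by positivity), ← ENNReal.ofReal_mul p1]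
  rw [← ENNReal.ofReal_mul ha,
    ← ENNReal.ofReal_mul' (show 0 ≤ (q r c d + q r d c) / 2 by positivity),
    ← ENNReal.ofReal_mul' (show 0 ≤ 1 / (n : ℝ) by positivity),
    ← ENNReal.ofReal_mul (mul_nonneg p1 p2), ← ENNReal.ofReal_mul (mul_nonneg p1 p2),
    ← ENNReal.ofReal_add (by positivity) (by positivity),
    ← ENNReal.ofReal_add (by positivity) (by positivity)]
  clear_value a b
  refine ENNReal.ofReal_le_ofReal (hreal.trans_eq ?_)
  field_simp
  ring

end Chord

open Chord in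
theorem chord_of_line (hL : LineStmt) (n : ℕ) : ChordStmt n := by
  intro hn G hCH Γ g hg hg0 q hq hq0 σ hσ hchord f hf hsupp h01
  have hG := hCH.metric
  obtain ⟨hFpm, hI0, hlow⟩ := lintegral_symDens_le Γ hG hf hsupp hq hq0
  set I := ∫ x, (∫ y, q (Γ.dist x y) (cosAt Γ f y x) (cosAt Γ f x y) ∂surf G f) ∂surf G f
  set Kp := ENNReal.ofReal (σ / 2 * omega n - gInt hn g) * ENNReal.ofReal (tvar G f) with hKp
  have hn' : (0 : ℝ) < n := Nat.cast_pos.2 hn
  have hwm : ∀ e : ℝ, Measurable (endWeight G f σ g e) := fun e => by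
    have hgn : Measurable fun p : E n × E n => gnorm G p.1 p.2 := hG.continuous_gnorm.measurable
    have hpr : Measurable (price σ g) := (measurable_const.sub hg.measurable).ennreal_ofReal
    exact ((hpr.comp (measurable_const.mul (measurable_cosVel hG hf))).mul
      hgn.inv.ennreal_ofReal).mul ((hgn.inv.pow_const n).div_const _).ennreal_ofReal
  have hpm : ∀ {b c : ℝ → ℝ}, Measurable b → Measurable c →
      Measurable (Function.uncurry fun p u => pairAt Γ f p (b u) (c u)) := fun hb hc =>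
    (measurable_pairAt hf).comp
      (measurable_fst.prodMk ((hb.comp measurable_snd).prodMk (hc.comp measurable_snd)))
  set C : E n × E n → ℝ≥0∞ := fun p => pairAt Γ f p 0 1 * endWeight G f σ g (-1) p with hC
  set D : E n × E n → ℝ≥0∞ := fun p => pairAt Γ f p (-1) 0 * endWeight G f σ g 1 p with hD
  have hCm : Measurable C := ((measurable_pairAt hf).comp
    (measurable_id.prodMk (measurable_const (a := ((0 : ℝ), (1 : ℝ)))))).mul (hwm _)
  have hDm : Measurable D := ((measurable_pairAt hf).comp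
    (measurable_id.prodMk (measurable_const (a := ((-1 : ℝ), (0 : ℝ)))))).mul (hwm _)
  have hCb : ∫⁻ p, C p ∂liouville G ≤ Kp := by
    refine end_bound hG hf hsupp hn hg hg0 hσ.le (Or.inr rfl)
      (P := fun p u => pairAt Γ f p 0 u) (hpm measurable_const measurable_id)
      (fun x v u hu => ?_)
      (fun p hp => by simpa using (section_bounds Γ hL hf hsupp h01 p hp).1)
    rw [pairAt_smul (inv_pos.2 hu), mul_zero, inv_mul_cancel₀ hu.ne']
  have hDb : ∫⁻ p, D p ∂liouville G ≤ Kp := by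
    refine end_bound hG hf hsupp hn hg hg0 hσ.le (Or.inl rfl)
      (P := fun p u => pairAt Γ f p (-u) 0) (hpm measurable_neg measurable_const)
      (fun x v u hu => ?_)
      (fun p hp => by simpa using (section_bounds Γ hL hf hsupp h01 p hp).2)
    rw [pairAt_smul (inv_pos.2 hu), mul_zero, mul_neg, inv_mul_cancel₀ hu.ne']
  -- assembly
  have hlen := length_bound hG hf hsupp h01 hn hL (Γ := Γ)
  have hall : ENNReal.ofReal (omega n) * ∫⁻ x, ENNReal.ofReal (f x ^ 2) ∂vol G ≤
      ENNReal.ofReal I * ENNReal.ofReal (1 / n) + Kp + Kp := by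
    refine hlen.trans ((lintegral_mono_ae ((ae_vel_ne_zero hn).mono fun p hp =>
      pair_le Γ hG hn hg0 hq0 hσ hchord p hp)).trans ?_)
    show ∫⁻ p, symDens Γ f q p * ENNReal.ofReal (1 / n) + C p + D (Γ.flow 1 p) ∂liouville G ≤ _
    have h1 : Measurable fun p => symDens Γ f q p * ENNReal.ofReal (1 / (n : ℝ)) := hFpm.mul measurable_const
    rw [lintegral_add_left (h1.fun_add hCm), lintegral_add_left h1,
      lintegral_mul_const _ hFpm, (Γ.liouville_inv 1).lintegral_comp hDm]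
    gcongr
  have hf2 : Integrable (fun x => f x ^ 2) (vol G) := by
    have : IsFiniteMeasureOnCompacts (vol G) := isFiniteMeasureOnCompacts_vol hG
    have hc : Continuous fun x => f x ^ 2 := by
      have := hf.continuous
      fun_prop
    have hs : HasCompactSupport fun x => f x ^ 2 := hsupp.mono fun x hx h => hx (by simp [h])
    exact hc.integrable_of_hasCompactSupport hs
  have hS0 : 0 ≤ ∫ x, f x ^ 2 ∂vol G := integral_nonneg fun x => sq_nonneg _
  have hK0 : 0 ≤ σ / 2 * omega n - gInt hn g := by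
    have : gInt hn g ≤ 0 := gInt_nonpos hn hg0
    have : 0 ≤ omega n := ENNReal.toReal_nonneg
    have := mul_nonneg (show 0 ≤ σ / 2 by linarith) this
    linarith
  have hA0 : 0 ≤ tvar G f := integral_nonneg fun x => gnorm_nonneg _ _ _
  rw [← ofReal_integral_eq_lintegral_ofReal hf2 (ae_of_all _ fun x => sq_nonneg _),
    ← ENNReal.ofReal_mul (show 0 ≤ omega n from ENNReal.toReal_nonneg)] at hall
  simp only [hKp] at hall
  rw [← ENNReal.ofReal_mul hI0, ← ENNReal.ofReal_mul hK0,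
    ← ENNReal.ofReal_add (by positivity) (by positivity),
    ← ENNReal.ofReal_add (by positivity) (by positivity),
    ENNReal.ofReal_le_ofReal_iff (by positivity)] at hall
  have h3 := mul_le_mul_of_nonneg_left hall hn'.le
  have h4 : (n : ℝ) * (I * (1 / n)) = I := by field_simp
  show _ ≤ I
  linarith

/-- The chord bound for general kernels. -/
theorem chordStmt (n : ℕ) : ChordStmt n := chord_of_line Line.lineStmt n

end

end Vale.Agent.P219.CH.Gen
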