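import Vale.Agent.P219.CH.Geo.Jacobi

/-!
P219: the derivative of the inverse exponential map of any `Geo` is a contraction and, paired
with the logarithm, is the velocity of arrival (Gauss lemma).
-/

namespace Vale.Agent.P219.CH

noncomputable section

variable {n : ℕ} {G : Coeff n}

theorem Geo.isFlow (Γ : Geo G) : IsFlow G Γ.flow := by
  refine ⟨Γ.flow_c1, Γ.flow_zero, fun p t => ?_⟩
  obtain ⟨hgeo, hvel⟩ := Γ.flow_geodesic p
  have hfun : deriv (fun s => (Γ.flow s p).1) = fun s => (Γ.flow s p).2 := funext hvel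
  obtain ⟨h1, h2⟩ := hgeo t
  rw [hfun] at h1 h2
  exact h1.prodMk h2

theorem Geo.jacobiFacts (hCH : IsCH G) (Γ : Geo G) : JacobiFacts G Γ.flow :=
  Γ.isFlow.jacobiFacts hCH

theorem Geo.fderiv_exp_logm (Γ : Geo G) (x y w : E n) :
    fderiv ℝ (expAt Γ.flow x) (Γ.logm x y) (fderiv ℝ (Γ.logm x) y w) = w := by
  have hlx : ContDiff ℝ 1 (Γ.logm x) := Γ.logm_c1.comp (contDiff_const.prodMk contDiff_id)
  have h1 := fderiv_comp y
    ((contDiff_expAt Γ.flow_c1 x).differentiable one_ne_zero (Γ.logm x y))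
    (hlx.differentiable one_ne_zero y)
  rw [show expAt Γ.flow x ∘ Γ.logm x = id from funext (Γ.exp_logm x), fderiv_id] at h1
  exact (congrArg (fun L : E n →L[ℝ] E n => L w) h1).symm

/-- `d logm` does not increase lengths. -/
theorem Geo.dlogm_le (hCH : IsCH G) (Γ : Geo G) (x y w : E n) :
    G x (fderiv ℝ (Γ.logm x) y w) (fderiv ℝ (Γ.logm x) y w) ≤ G y w w := by
  have h := (Γ.jacobiFacts hCH).expand x (Γ.logm x y) (fderiv ℝ (Γ.logm x) y w)
  rwa [Γ.fderiv_exp_logm x y w, expAt, Γ.exp_logm] at h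

/-- The Gauss lemma for the logarithm. -/
theorem Geo.logm_dlogm (hCH : IsCH G) (Γ : Geo G) (x y w : E n) :
    G x (Γ.logm x y) (fderiv ℝ (Γ.logm x) y w) = G y (Γ.V x y) w := by
  have h := (Γ.jacobiFacts hCH).gauss x (Γ.logm x y) (fderiv ℝ (Γ.logm x) y w)
  rw [Γ.fderiv_exp_logm x y w, expAt, Γ.exp_logm] at h
  exact h.symm

end

end Vale.Agent.P219.CH
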