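import Vale.Agent.P219.CH.Core.Field
import Vale.Agent.P219.CH.Gen.Field.Point

/-!
P219, general kernels: the averaged field.

`X y = χ y • (∫ ψ (dist x y ², p x y) V x y dsurf x + τ' V o y)`. The normal at the base point enters
as a parameter: the family is averaged against the image of the surface measure under
`x ↦ (x, normal x)`, which lives in a compact set independent of `f`.
-/

namespace Vale.Agent.P219.CH.Gen.Field

open MeasureTheory Set Filter Topology Vale.Agent.P219.CH.Core Vale.Agent.P219.CH.Core.Field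

noncomputable section

variable {n : ℕ} {G : Coeff n} (Γ : Geo G)

/-- The family averaged over the level sets, cut off. -/
def fam (χ : E n → ℝ) (ψ : ℝ → ℝ → ℝ) (q : (E n × E n) × E n) : E n :=
  χ q.2 • radial Γ ψ q.1.1 q.1.2 q.2

theorem contDiff_fam (hG : IsMetric G) {χ : E n → ℝ} (hχ : ContDiff ℝ 1 χ) {ψ : ℝ → ℝ → ℝ}
    (hψ : ContDiff ℝ 1 (Function.uncurry ψ)) : ContDiff ℝ 1 (fam Γ χ ψ) :=
  (hχ.comp contDiff_snd).smul (contDiff_radial Γ hG hψ)

theorem fam_eventuallyEq {χ : E n → ℝ} {ψ : ℝ → ℝ → ℝ} {y : E n} (hχ : χ =ᶠ[𝓝 y] 1)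
    (z : E n × E n) : (fun w => fam Γ χ ψ (z, w)) =ᶠ[𝓝 y] radial Γ ψ z.1 z.2 := by
  filter_upwards [hχ] with w hw
  simp [fam, hw]

variable (hG : IsMetric G) {f : E n → ℝ} (hf : ContDiff ℝ 1 f) {S : Set (E n)}
  (hS : IsCompact S) {μ : Measure (E n)} [IsFiniteMeasure μ] (hμ : ∀ᵐ x ∂μ, x ∈ S)
include hG hf hS hμ

/-- Continuous functions of the distance and of both cosines are integrable over pairs. -/
theorem integrable_cos {q : ℝ × ℝ × ℝ → ℝ} (hq : Continuous q) :
    Integrable (fun z : E n × E n => q (Γ.dist z.1 z.2, cosAt Γ f z.2 z.1, cosAt Γ f z.1 z.2))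
      (μ.prod μ) := by
  have hd := Chord.continuous_dist Γ hG
  obtain ⟨D, hD⟩ := (hS.prod hS).exists_bound_of_continuousOn hd.continuousOn
  obtain ⟨B, hB⟩ := ((isCompact_Icc (a := (0 : ℝ)) (b := D)).prod
    ((isCompact_Icc (a := (-1 : ℝ)) (b := 1)).prod
      (isCompact_Icc (a := (-1 : ℝ)) (b := 1)))).exists_bound_of_continuousOn hq.continuousOn
  have hc := Chord.measurable_cosAt Γ hG hf
  refine Integrable.of_bound (hq.measurable.comp (hd.measurable.prodMk
    ((hc.comp measurable_swap).prodMk hc))).aestronglyMeasurable B ?_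
  filter_upwards [Measure.quasiMeasurePreserving_fst.ae hμ,
    Measure.quasiMeasurePreserving_snd.ae hμ] with z h1 h2
  exact hB _ ⟨⟨dist_nonneg Γ _ _, (le_abs_self _).trans (hD z ⟨h1, h2⟩)⟩,
    abs_le.1 (Vale.Agent.P219.CH.Core.Field.abs_cosAt_le Γ hG f _ _),
    abs_le.1 (Vale.Agent.P219.CH.Core.Field.abs_cosAt_le Γ hG f _ _)⟩

end

end Vale.Agent.P219.CH.Gen.Field

namespace Vale.Agent.P219.CH.Gen

open MeasureTheory Set Filter Topology Vale.Agent.P219.CH.Core Vale.Agent.P219.CH.Core.Field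
open Vale.Agent.P219.CH.Gen.Field
open scoped ContDiff

/-- The averaged field with a general profile. -/
theorem avgFieldStmt (n : ℕ) : Gen.AvgFieldStmt n := by
  intro G hCH Γ ψ hψ hψ0 o R A hR τ hτ
  have hG := hCH.metric
  set S := gball Γ o R with hSdef
  have hS : IsCompact S := isCompact_gball Γ hG o R
  obtain ⟨C, hC⟩ := exists_normal_bound hG hS
  have hP : IsCompact (S ×ˢ Metric.closedBall (0 : E n) C) := hS.prod (isCompact_closedBall _ _)
  obtain ⟨r, hr⟩ := hS.isBounded.subset_closedBall (0 : E n)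
  set ρ₀ := max r 0
  have hρ₀ : ∀ y ∈ S, ‖y‖ ≤ ρ₀ := fun y hy => by
    have := hr hy
    rw [Metric.mem_closedBall, dist_zero_right] at this
    exact this.trans (le_max_left _ _)
  have hρ0 : 0 ≤ ρ₀ := le_max_right _ _
  let χ : ContDiffBump (0 : E n) := ⟨ρ₀ + 2, ρ₀ + 3, by linarith, by linarith⟩
  have hχ1 : ∀ y : E n, ‖y‖ ≤ ρ₀ + 1 → (χ : E n → ℝ) =ᶠ[𝓝 y] 1 := fun y hy =>
    χ.eventuallyEq_one_of_mem_ball (by rw [Metric.mem_ball, dist_zero_right]; linarith)
  have hχS : ∀ y ∈ S, (χ : E n → ℝ) =ᶠ[𝓝 y] 1 := fun y hy => hχ1 y (by linarith [hρ₀ y hy])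
  set K := Metric.closedBall (0 : E n) (ρ₀ + 3)
  set A' := max A 0
  set τ' := τ / (R * (A' + 1)) with hτ'
  have hτ'0 : 0 < τ' := by positivity
  set Ψ₁ := fam Γ χ ψ
  set Ψ₂ := famX Γ χ fun _ => τ'
  have hΨ₁ : ContDiff ℝ 1 Ψ₁ := contDiff_fam Γ hG χ.contDiff hψ
  have hΨ₂ : ContDiff ℝ 1 Ψ₂ := contDiff_famX Γ hG χ.contDiff contDiff_const
  have hout0 : ∀ y : E n, y ∉ K → (χ : E n → ℝ) y = 0 := fun y hy => by
    rw [Metric.mem_closedBall, not_le] at hy
    exact χ.zero_of_le_dist hy.le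
  obtain ⟨M₁, η₁, hη₁, hb₁⟩ := exists_avg_bounds hΨ₁ hP (isCompact_closedBall _ _)
    (fun z y hy => by simp [Ψ₁, fam, hout0 y hy]) A'
  obtain ⟨M₂, η₂, hη₂, hb₂⟩ := exists_avg_bounds hΨ₂ (isCompact_singleton (x := o))
    (isCompact_closedBall _ _) (fun z y hy => by simp [Ψ₂, famX, hout0 y hy]) 1
  have hb₂' := hb₂ (Measure.dirac o) (by simp [measureReal_def]) (by
    rw [ae_dirac_eq]; exact rfl)
  set M := max (M₁ + M₂) 0
  set η := fun s => η₁ s + η₂ s
  obtain ⟨B, hB⟩ := exists_divg_bound (K := K) hG (isCompact_closedBall _ _) M η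
  obtain ⟨t₀, ht₀, hkeep⟩ := exists_time Γ hG o hR (le_max_right (M₁ + M₂) 0) hτ'0 hρ₀
  refine ⟨K, M, η, t₀, B, isCompact_closedBall _ _, by simpa using hη₁.add hη₂, ht₀,
    fun f hf hfS _ hA => ?_⟩
  obtain ⟨hfin, hmass, hμ⟩ := surf_facts hG hf hS hfS
  set μ := surf G f with hμdef
  have hA' : μ.real univ ≤ A' := hmass.le.trans (hA.trans (le_max_left _ _))
  have hN : Measurable fun x : E n => (x, normal G f x) :=
    measurable_id.prodMk (Core.Field.measurable_normal hG hf)
  set μN := μ.map fun x => (x, normal G f x) with hμN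
  have hμN' : ∀ᵐ z ∂μN, z ∈ S ×ˢ Metric.closedBall (0 : E n) C := by
    rw [hμN, ae_map_iff (p := fun z => z ∈ S ×ˢ Metric.closedBall (0 : E n) C) hN.aemeasurable
      hP.isClosed.measurableSet]
    filter_upwards [hμ] with x hx
    exact ⟨hx, by rw [Metric.mem_closedBall, dist_zero_right]; exact hC x hx f⟩
  have hAN : μN.real univ ≤ A' := by
    rw [hμN, map_measureReal_apply hN MeasurableSet.univ, preimage_univ]
    exact hA'
  have h1 := hb₁ μN hAN hμN'
  rw [avg_dirac] at hb₂'
  set X₁ := avg Ψ₁ μN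
  set X₂ := fun y => Ψ₂ (o, y)
  have hd1 : Differentiable ℝ X₁ := h1.1.differentiable one_ne_zero
  have hd2 : Differentiable ℝ X₂ := hb₂'.1.differentiable one_ne_zero
  have hX : FieldBound K M η (fun y => X₁ y + X₂ y) := by
    refine ⟨h1.1.add hb₂'.1, (tsupport_add X₁ X₂).trans (union_subset h1.2.1 hb₂'.2.1),
      fun y => ⟨?_, ?_⟩, fun y y' => ?_⟩
    · exact ((norm_add_le _ _).trans (add_le_add (h1.2.2.1 y).1 (hb₂'.2.2.1 y).1)).trans
        (le_max_left _ _)
    · rw [fderiv_fun_add (hd1 y) (hd2 y)]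
      exact ((norm_add_le _ _).trans (add_le_add (h1.2.2.1 y).2 (hb₂'.2.2.1 y).2)).trans
        (le_max_left _ _)
    · rw [fderiv_fun_add (hd1 y) (hd2 y), fderiv_fun_add (hd1 y') (hd2 y'), add_sub_add_comm]
      exact (norm_add_le _ _).trans (add_le_add (h1.2.2.2 y y') (hb₂'.2.2.2 y y'))
  set X := fun y => X₁ y + X₂ y with hXdef
  -- values of the pairing of `X` with a covector
  have hpair : ∀ (y : E n) (L : E n →L[ℝ] ℝ), (χ : E n → ℝ) y = 1 →
      L (X y) = (∫ x, ψ (rho Γ x y) (pr Γ x (normal G f x) y) * L (Γ.V x y) ∂μ) +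
        τ' * L (Γ.V o y) := by
    intro y L hy
    have hc : Continuous fun z : E n × E n => Ψ₁ (z, y) := hΨ₁.continuous.comp (by fun_prop)
    have hi : Integrable (fun z => Ψ₁ (z, y)) μN := integrable_cont hP hμN' hc
    simp only [hXdef, map_add, X₁, X₂, avg]
    rw [← L.integral_comp_comm hi, hμN,
      integral_map (f := fun z => L (Ψ₁ (z, y))) hN.aemeasurable
        (L.continuous.comp hc).aestronglyMeasurable]
    simp [Ψ₁, Ψ₂, fam, famX, Gen.Field.radial, Core.Field.radial, hy]
  -- outside the ball `X` points away from `o`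
  have hout : ∀ x, ‖x‖ ≤ ρ₀ + 1 → R ^ 2 ≤ rho Γ o x →
      τ' * R ^ 2 ≤ fderiv ℝ (rho Γ o) x (X x) := by
    intro x hx hxR
    have e : fderiv ℝ (rho Γ o) x (X x) = 2 * G x (Γ.V o x) (X x) := Γ.grad_dist o x (X x)
    rw [e, hpair x (G x (Γ.V o x)) (hχ1 x hx).eq_of_nhds, sq_V Γ hG]
    have h0 : 0 ≤ ∫ z, ψ (rho Γ z x) (pr Γ z (normal G f z) x) *
        G x (Γ.V o x) (Γ.V z x) ∂μ := by
      refine integral_nonneg_of_ae ?_
      filter_upwards [hμ] with z hz
      exact mul_nonneg (hψ0 _ _ (rho_nonneg Γ hG z x))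
        (inner_V_nonneg Γ hG o z x (((rho_le_iff Γ hG hR.le o z).1 hz).trans hxR))
    nlinarith [mul_le_mul_of_nonneg_left hxR hτ'0.le, mul_pos hτ'0 (pow_pos hR 2)]
  have hfd := hψ.continuous_fderiv one_ne_zero
  refine ⟨X, hX, hB X hX, fun t ht htt => hkeep X (fun x => (hX.2.2.1 x).1) hout f hfS t ht htt,
    ?_, ?_⟩
  · -- the tangential divergence
    set I := fun x y => geom n ψ (Γ.dist x y) (cosAt Γ f y x) (cosAt Γ f x y)
    have hgeom : Continuous fun z : ℝ × ℝ × ℝ => geom n ψ z.1 z.2.1 z.2.2 := by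
      have hs : Continuous fun z : ℝ × ℝ × ℝ => (z.1 ^ 2, z.1 * z.2.1) := by fun_prop
      have hψc : Continuous fun z : ℝ × ℝ × ℝ => ψ (z.1 ^ 2) (z.1 * z.2.1) :=
        hψ.continuous.comp hs
      have hS' : Continuous fun z : ℝ × ℝ × ℝ => dS ψ z.1 z.2.1 :=
        (hfd.comp hs).clm_apply continuous_const
      have hP' : Continuous fun z : ℝ × ℝ × ℝ => dP ψ z.1 z.2.1 :=
        (hfd.comp hs).clm_apply continuous_const
      unfold geom
      fun_prop
    have hI : Integrable (Function.uncurry I) (μ.prod μ) :=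
      integrable_cos Γ hG hf hS hμ hgeom
    change ∫ x, ∫ y, I x y ∂μ ∂μ ≤ _
    rw [integral_integral_swap hI]
    have hdiv : Integrable (fun y => divTan G f X y) μ := by
      have hDX := hX.1.continuous_fderiv one_ne_zero
      have hXc := hX.1.continuous
      have hc : ∀ {u : E n × E n → E n}, Continuous u →
          Continuous fun q : E n × E n => chr G q.1 (u q) (X q.1) := fun hu =>
        hG.contDiff_chr.continuous.comp
          (continuous_fst.prodMk (hu.prodMk (hXc.comp continuous_fst)))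
      refine integrable_normal (F := fun q => divg G X q.1 -
        G q.1 (covd G X q.1 q.2) q.2) hG hf hS hμ (Continuous.sub ?_ ?_)
      · refine continuous_finsetSum _ fun i _ => ?_
        exact (EuclideanSpace.proj (𝕜 := ℝ) i).continuous.comp
          (((hDX.comp continuous_fst).clm_apply
            (continuous_const (y := EuclideanSpace.single i (1 : ℝ)))).add (hc continuous_const))
      · exact ((hG.smooth.continuous.comp continuous_fst).clm_apply
          (((hDX.comp continuous_fst).clm_apply continuous_snd).add (hc continuous_snd))).clm_apply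
          continuous_snd
    refine integral_mono_ae hI.integral_prod_right hdiv ?_
    filter_upwards [hμ, hI.prod_left_ae] with y hy hIy
    set ν := normal G f y
    have e1 : ∀ z : E n × E n, jetTan G y ν (D2 Ψ₁ (z, y), Ψ₁ (z, y)) =
        divTan G f (Gen.Field.radial Γ ψ z.1 z.2) y := fun z => by
      rw [divTan_eq_jet G, ← (hasFDerivAt_D2 hΨ₁ z y).fderiv]
      have h := fam_eventuallyEq Γ (ψ := ψ) (hχS y hy) z
      rw [h.fderiv_eq, show Ψ₁ (z, y) = Gen.Field.radial Γ ψ z.1 z.2 y from h.eq_of_nhds]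
    have e2 : jetTan G y ν (fderiv ℝ X₂ y, X₂ y) =
        divTan G f (Core.Field.radial Γ (fun _ => τ') o) y := by
      have h := famX_eventuallyEq Γ (φ := fun _ => τ') (hχS y hy) o
      rw [divTan_eq_jet G, show fderiv ℝ X₂ y = _ from h.fderiv_eq,
        show X₂ y = Core.Field.radial Γ (fun _ => τ') o y from h.eq_of_nhds]
    have hcont : Continuous fun z => jetTan G y ν (D2 Ψ₁ (z, y), Ψ₁ (z, y)) :=
      ((jetTan G y ν).continuous_of_finiteDimensional).comp
        (((continuous_D2 hΨ₁).comp (by fun_prop)).prodMk (hΨ₁.continuous.comp (by fun_prop)))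
    simp only [e1] at hcont
    have hsplit : divTan G f X y =
        (∫ x, divTan G f (Gen.Field.radial Γ ψ x (normal G f x)) y ∂μ) +
          divTan G f (Core.Field.radial Γ (fun _ => τ') o) y := by
      rw [divTan_eq_jet G, hXdef, fderiv_fun_add (hd1 y) (hd2 y)]
      change jetTan G y ν ((fderiv ℝ X₁ y, X₁ y) + (fderiv ℝ X₂ y, X₂ y)) = _
      rw [map_add, jetTan_avg hΨ₁ hP hμN', e2]
      simp only [e1]
      rw [hμN, integral_map hN.aemeasurable hcont.aestronglyMeasurable]
    have hpos : 0 ≤ divTan G f (Core.Field.radial Γ (fun _ => τ') o) y :=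
      divTan_const_radial_nonneg Γ hG hτ'0.le f o y
    rw [hsplit]
    have hint : Integrable (fun x => divTan G f (Gen.Field.radial Γ ψ x (normal G f x)) y) μ :=
      (integrable_cont hP hμN' hcont).comp_aemeasurable hN.aemeasurable
    have hle : ∫ x, I x y ∂μ ≤
        ∫ x, divTan G f (Gen.Field.radial Γ ψ x (normal G f x)) y ∂μ :=
      integral_mono hIy hint fun x => Gen.Field.divTan_radial_ge Γ hCH hψ hψ0 f x y
    linarith
  · -- the flux
    rw [integral_mul_divg hG hf (hS.of_isClosed_subset (isClosed_tsupport f) hfS) hX.1, ← hμdef]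
    set H := fun x y => Γ.dist x y * ψ (Γ.dist x y ^ 2) (Γ.dist x y * cosAt Γ f y x) *
      cosAt Γ f x y
    have hH : Integrable (Function.uncurry H) (μ.prod μ) := by
      have hc : Continuous fun z : ℝ × ℝ × ℝ => z.1 * ψ (z.1 ^ 2) (z.1 * z.2.1) * z.2.2 := by
        have : Continuous fun z : ℝ × ℝ × ℝ => ψ (z.1 ^ 2) (z.1 * z.2.1) :=
          hψ.continuous.comp (by fun_prop : Continuous fun z : ℝ × ℝ × ℝ => (z.1 ^ 2, z.1 * z.2.1))
        fun_prop
      exact integrable_cos Γ hG hf hS hμ hc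
    have hV := (contDiff_V Γ).continuous
    have hH2 : Integrable (fun y => τ' * G y (Γ.V o y) (normal G f y)) μ := by
      refine integrable_normal (F := fun q => τ' * G q.1 (Γ.V o q.1) q.2) hG hf hS hμ ?_
      exact continuous_const.mul (((hG.smooth.continuous.comp continuous_fst).clm_apply
        (hV.comp (continuous_const.prodMk continuous_fst))).clm_apply continuous_snd)
    have e : ∫ y, G y (X y) (normal G f y) ∂μ =
        (∫ x, ∫ y, H x y ∂μ ∂μ) + ∫ y, τ' * G y (Γ.V o y) (normal G f y) ∂μ := by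
      have hHr : Integrable (fun y => ∫ x, H x y ∂μ) μ := hH.integral_prod_right
      rw [integral_integral_swap hH, ← integral_add hHr hH2]
      refine integral_congr_ae ?_
      filter_upwards [hμ] with y hy
      have h := hpair y ((G y).flip (normal G f y)) (hχS y hy).eq_of_nhds
      simp only [ContinuousLinearMap.flip_apply] at h
      rw [h]
      congr 1
      refine integral_congr_ae (Eventually.of_forall fun x => ?_)
      simp only [H, ← dist_mul_cosAt Γ hG f x y, dist_sq Γ hG, pr_eq Γ hG f x y]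
      ring
    rw [e, add_sub_cancel_left, ← Real.norm_eq_abs]
    refine (norm_integral_le_of_norm_le_const (C := τ' * R) ?_).trans ?_
    · filter_upwards [hμ] with y hy
      have hc := inner_normal_sq_le hG f y (Γ.V o y)
      rw [sq_V Γ hG] at hc
      have hy' := (rho_le_iff Γ hG hR.le o y).1 hy
      rw [Real.norm_eq_abs, abs_mul, abs_of_pos hτ'0]
      exact mul_le_mul_of_nonneg_left (abs_le_of_sq_le_sq (hc.trans hy') hR.le) hτ'0.le
    · calc τ' * R * μ.real univ ≤ τ' * R * A' := mul_le_mul_of_nonneg_left hA' (by positivity)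
        _ ≤ τ' * R * (A' + 1) := mul_le_mul_of_nonneg_left (by linarith) (by positivity)
        _ = τ := by
          rw [hτ']
          have : A' + 1 ≠ 0 := by positivity
          field_simp

end Vale.Agent.P219.CH.Gen
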