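import Vale.Agent.P219.CH.Gen.Defs
import Vale.Agent.P219.CH.Core.Minimise

/-!
P219, general kernels: the core theorem from its parts. The minimising argument is the one of
`Core.Minimise`; here is the step it needs from a certificate with both cosines, by scaling the
field to radius `R`.
-/

namespace Vale.Agent.P219.CH.Gen

open MeasureTheory Set Filter Topology Vale.Agent.P219.CH.Core Vale.Agent.P219.CH.Core.Mini
open scoped ContDiff

noncomputable section

namespace Mini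

variable {n : ℕ}

/-- The field scaled to radius `R`. -/
def scaleψ (n : ℕ) (R : ℝ) (ψ : ℝ → ℝ → ℝ) (s p : ℝ) : ℝ :=
  (R ^ (n - 2))⁻¹ * ψ (s / R ^ 2) (p / R)

theorem contDiff_scaleψ {ψ : ℝ → ℝ → ℝ} (hψ : ContDiff ℝ 1 (Function.uncurry ψ)) (R : ℝ) :
    ContDiff ℝ 1 (Function.uncurry (scaleψ n R ψ)) :=
  contDiff_const.mul (hψ.comp ((contDiff_fst.div_const _).prodMk (contDiff_snd.div_const _)))

theorem fderiv_scaleψ {ψ : ℝ → ℝ → ℝ} (hψ : ContDiff ℝ 1 (Function.uncurry ψ)) (R : ℝ)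
    (z v : ℝ × ℝ) :
    fderiv ℝ (Function.uncurry (scaleψ n R ψ)) z v = (R ^ (n - 2))⁻¹ *
      fderiv ℝ (Function.uncurry ψ) (z.1 / R ^ 2, z.2 / R) (v.1 / R ^ 2, v.2 / R) := by
  set T : ℝ × ℝ →L[ℝ] ℝ × ℝ := ((R ^ 2)⁻¹ • ContinuousLinearMap.fst ℝ ℝ ℝ).prod
    (R⁻¹ • ContinuousLinearMap.snd ℝ ℝ ℝ) with hT
  have hTv : ∀ u : ℝ × ℝ, T u = (u.1 / R ^ 2, u.2 / R) := fun u => by
    simp [hT, div_eq_inv_mul]
  have h := ((hψ.differentiable one_ne_zero).differentiableAt.hasFDerivAt.comp z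
    T.hasFDerivAt).const_mul (R ^ (n - 2))⁻¹
  have e : Function.uncurry (scaleψ n R ψ) =
      fun u => (R ^ (n - 2))⁻¹ * (Function.uncurry ψ ∘ T) u := by
    funext u
    simp [scaleψ, Function.uncurry_def, hTv]
  rw [e, h.fderiv]
  simp [hTv]

theorem kernel_scale {ψ : ℝ → ℝ → ℝ} (hψ : ContDiff ℝ 1 (Function.uncurry ψ)) {R : ℝ}
    (hR : 0 < R) (a r c d : ℝ) :
    (R ^ (n - 2))⁻¹ * kernel n a ψ (r / R) c d =
      (R ^ (n - 2))⁻¹ * a + geom n (scaleψ n R ψ) r c d -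
        ((n : ℝ) - 1) / R * (r * scaleψ n R ψ (r ^ 2) (r * c) * d) := by
  have e1 : (r / R) ^ 2 = r ^ 2 / R ^ 2 := div_pow r R 2
  have e2 : r / R * c = r * c / R := div_mul_eq_mul_div r R c
  have hs : dS (scaleψ n R ψ) r c = (R ^ (n - 2))⁻¹ / R ^ 2 * dS ψ (r / R) c := by
    rw [dS, dS, fderiv_scaleψ hψ, e1, e2]
    have : ((1 : ℝ) / R ^ 2, (0 : ℝ) / R) = (R ^ 2)⁻¹ • ((1 : ℝ), (0 : ℝ)) := by simp
    rw [this, map_smul, smul_eq_mul]
    ring
  have hp : dP (scaleψ n R ψ) r c = (R ^ (n - 2))⁻¹ / R * dP ψ (r / R) c := by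
    rw [dP, dP, fderiv_scaleψ hψ, e1, e2]
    have : ((0 : ℝ) / R ^ 2, (1 : ℝ) / R) = R⁻¹ • ((0 : ℝ), (1 : ℝ)) := by simp
    rw [this, map_smul, smul_eq_mul]
    ring
  unfold kernel geom
  rw [hs, hp, scaleψ, e1, e2, abs_mul, abs_of_nonneg (by positivity : 0 ≤ (R ^ (n - 2))⁻¹ / R)]
  field_simp

theorem continuous_geom {ψ : ℝ → ℝ → ℝ} (hψ : ContDiff ℝ 1 (Function.uncurry ψ)) :
    Continuous fun z : ℝ × ℝ × ℝ => geom n ψ z.1 z.2.1 z.2.2 := by
  have hm : Continuous fun z : ℝ × ℝ × ℝ => (z.1 ^ 2, z.1 * z.2.1) := by fun_prop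
  have h0 : Continuous fun z : ℝ × ℝ × ℝ => ψ (z.1 ^ 2) (z.1 * z.2.1) := hψ.continuous.comp hm
  have hd := (hψ.continuous_fderiv one_ne_zero).comp hm
  have h1 : Continuous fun z : ℝ × ℝ × ℝ => dS ψ z.1 z.2.1 := hd.clm_apply continuous_const
  have h2 : Continuous fun z : ℝ × ℝ × ℝ => dP ψ z.1 z.2.1 := hd.clm_apply continuous_const
  unfold geom
  fun_prop

theorem continuous_flux {ψ : ℝ → ℝ → ℝ} (hψ : ContDiff ℝ 1 (Function.uncurry ψ)) :
    Continuous fun z : ℝ × ℝ × ℝ => z.1 * ψ (z.1 ^ 2) (z.1 * z.2.1) * z.2.2 := by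
  have h0 : Continuous fun z : ℝ × ℝ × ℝ => ψ (z.1 ^ 2) (z.1 * z.2.1) :=
    hψ.continuous.comp
      ((by fun_prop : Continuous fun z : ℝ × ℝ × ℝ => (z.1 ^ 2, z.1 * z.2.1)))
  fun_prop

theorem continuous_kernel {ψ : ℝ → ℝ → ℝ} (hψ : ContDiff ℝ 1 (Function.uncurry ψ)) (a : ℝ) :
    Continuous fun z : ℝ × ℝ × ℝ => kernel n a ψ z.1 z.2.1 z.2.2 :=
  (continuous_const.add (continuous_geom hψ)).sub (continuous_const.mul (continuous_flux hψ))

/-- A continuous kernel of distance and both cosines is integrable on pairs of surface points. -/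
theorem integrable_pair₃ {G : Coeff n} (Γ : Geo G) (hG : IsMetric G) {f : E n → ℝ}
    (hf : ContDiff ℝ 1 f) (hs : HasCompactSupport f) {w : ℝ × ℝ × ℝ → ℝ} (hw : Continuous w) :
    Integrable
      (fun p : E n × E n => w (Γ.dist p.1 p.2, cosAt Γ f p.2 p.1, cosAt Γ f p.1 p.2))
      ((surf G f).prod (surf G f)) := by
  have := finite_surf hG hf hs
  obtain ⟨D, hD⟩ := (hs.prod hs).bddAbove_image (continuous_dist Γ hG).continuousOn
  obtain ⟨C, hC⟩ := (isCompact_Icc (a := (0 : ℝ)) (b := D)).prod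
    ((isCompact_Icc (a := (-1 : ℝ)) (b := 1)).prod (isCompact_Icc (a := (-1 : ℝ)) (b := 1)))
    |>.exists_bound_of_continuousOn hw.continuousOn
  refine Integrable.of_bound ((hw.measurable.comp ((continuous_dist Γ hG).measurable.prodMk
    (((measurable_cosAt Γ hG hf).comp measurable_swap).prodMk
      (measurable_cosAt Γ hG hf)))).aestronglyMeasurable) C ?_
  filter_upwards [Measure.quasiMeasurePreserving_fst.ae (surf_ae_mem hG hf),
    Measure.quasiMeasurePreserving_snd.ae (surf_ae_mem hG hf)] with p h1 h2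
  exact hC _ ⟨⟨Real.sqrt_nonneg _, hD (mem_image_of_mem _ ⟨h1, h2⟩)⟩,
    abs_le.1 (abs_cosAt_le Γ hG f p.2 p.1), abs_le.1 (abs_cosAt_le Γ hG f p.1 p.2)⟩

/-- The surface pairs against the first variation. -/
theorem pair_eq {G : Coeff n} (Γ : Geo G) (hG : IsMetric G) {f : E n → ℝ} (hf : ContDiff ℝ 1 f)
    (hs : HasCompactSupport f) {ψ : ℝ → ℝ → ℝ} (hψ : ContDiff ℝ 1 (Function.uncurry ψ)) {R : ℝ}
    (hR : 0 < R) (a : ℝ) :
    (∫ x, (∫ y, (R ^ (n - 2))⁻¹ * kernel n a ψ (Γ.dist x y / R) (cosAt Γ f y x) (cosAt Γ f x y)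
        ∂surf G f) ∂surf G f) =
      (R ^ (n - 2))⁻¹ * a * tvar G f ^ 2 +
        (∫ x, (∫ y, geom n (scaleψ n R ψ) (Γ.dist x y) (cosAt Γ f y x) (cosAt Γ f x y)
          ∂surf G f) ∂surf G f) -
        ((n : ℝ) - 1) / R * ∫ x, (∫ y, Γ.dist x y *
          scaleψ n R ψ (Γ.dist x y ^ 2) (Γ.dist x y * cosAt Γ f y x) * cosAt Γ f x y
          ∂surf G f) ∂surf G f := by
  have := finite_surf hG hf hs
  have hψ1 := contDiff_scaleψ (n := n) hψ R
  have i0 : Integrable (fun _ : E n × E n => (R ^ (n - 2))⁻¹ * a) ((surf G f).prod (surf G f)) :=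
    integrable_const _
  have i1 := integrable_pair₃ Γ hG hf hs (continuous_geom (n := n) hψ1)
  have i2 := integrable_pair₃ Γ hG hf hs (continuous_flux hψ1)
  simp only [kernel_scale hψ hR]
  rw [integral_integral ((i0.add i1).sub (i2.const_mul (((n : ℝ) - 1) / R))),
    integral_integral i1, integral_integral i2]
  rw [integral_sub (i0.fun_add i1) (i2.const_mul _), integral_add i0 i1]
  rw [integral_const_mul (((n : ℝ) - 1) / R)]
  congr 2
  rw [integral_const, smul_eq_mul, measureReal_def, ← univ_prod_univ, Measure.prod_prod,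
    ENNReal.toReal_mul, ← measureReal_def, surf_real hG hf hs]
  ring

end Mini

open Mini in
/-- The core theorem for general kernels from its parts. -/
theorem core_stmt {n : ℕ} (hchord : ChordStmt n) (hvar : VariationStmt n)
    (hfield : AvgFieldStmt n) : CoreStmt n := by
  intro hn5 hgeo C
  refine sobolev_of_step hn5 hgeo hvar C.a_nonneg C.g_nonpos C.balance fun G hCH Γ => ?_
  intro hn o Rb A R σ hRb hR hσ
  obtain ⟨ψ, hψ, hψ0, hQ, hQpair⟩ := C.approx σ hσ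
  set κ := (R ^ (n - 2))⁻¹ with hκ
  have hκ0 : 0 < κ := by positivity
  have hψR0 : ∀ s p, 0 ≤ s → 0 ≤ scaleψ n R ψ s p := fun s p hs =>
    mul_nonneg hκ0.le (hψ0 _ _ (by positivity))
  obtain ⟨K, M, η, t₀, B, hK, hη, ht₀, hX⟩ :=
    hfield G hCH Γ (scaleψ n R ψ) (contDiff_scaleψ hψ R) hψR0 o Rb A hRb σ hσ
  refine ⟨K, M, η, t₀, B, hK, hη, ht₀, fun f hf hfs hf01 hfA => ?_⟩
  obtain ⟨X, hXb, hXdiv, hXsupp, hgeom, hflux⟩ := hX f hf hfs hf01 hfA
  refine ⟨X, hXb, hXdiv, hXsupp, ?_⟩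
  have hfc : HasCompactSupport f :=
    hasCompactSupport (isCompact_gball Γ hCH.metric o Rb) ⟨hf, hfs, hf01⟩
  have hch := hchord hn G hCH Γ (fun c => R * C.g c) (continuous_const.mul C.g_cont)
    (fun c hc => mul_nonpos_of_nonneg_of_nonpos hR.le (C.g_nonpos c hc))
    (fun r c d => κ * kernel n C.a ψ (r / R) c d)
    (continuous_const.mul ((continuous_kernel hψ C.a).comp
      (by fun_prop : Continuous fun z : ℝ × ℝ × ℝ => (z.1 / R, z.2.1, z.2.2))))
    (fun r c d hr hc hd => by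
      rw [← mul_add]
      exact mul_nonneg hκ0.le (hQ _ c d (by positivity) hc hd))
    (R * σ) (by positivity)
    (fun r c d hr hc hc' hd hd' => by
      have := hQpair (r / R) c d (by positivity) hc hc' hd hd'
      have h2 := mul_le_mul_of_nonneg_left this hR.le
      have e : R * ((r / R) ^ (n - 1) *
          (kernel n C.a ψ (r / R) c d + kernel n C.a ψ (r / R) d c) / (2 * c * d)) =
          r ^ (n - 1) * (κ * kernel n C.a ψ (r / R) c d + κ * kernel n C.a ψ (r / R) d c) /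
            (2 * c * d) := by
        rw [hκ, show n - 1 = n - 2 + 1 by omega, pow_succ, pow_succ, div_pow]
        field_simp
      rw [e] at h2
      refine le_trans (le_of_eq ?_) h2
      field_simp)
    f hf hfc hf01
  rw [hκ, pair_eq Γ hCH.metric hf hfc hψ hR, gInt_scale, ← hκ] at hch
  have hh0 : 0 ≤ ((n : ℝ) - 1) / R :=
    div_nonneg (sub_nonneg.2 (Nat.one_le_cast.2 hn)) hR.le
  have hfl := mul_le_mul_of_nonneg_left (abs_le.1 hflux).2 hh0
  linarith

end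

end Vale.Agent.P219.CH.Gen
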