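import Vale.Agent.P219.CH.Geo.Hadamard
import Vale.Agent.P219.CH.Core.Variation
import Vale.Agent.P219.CH.Gen.Chord
import Vale.Agent.P219.CH.Gen.Field
import Vale.Agent.P219.CH.Gen.Minimise

/-!
P219: assembly of the inequality from a certificate with a general kernel.
-/

namespace Vale.Agent.P219.CH.Gen

/-- A general certificate in dimension `n ≥ 5` proves the smooth form of the sharp inequality. -/
theorem sobolev_of_cert {n : ℕ} (hn : 5 ≤ n) (C : Cert n) : SobolevStmt n :=
  core_stmt (chordStmt n) (Core.variationStmt n) (avgFieldStmt n) hn (geoStmt n) C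

end Vale.Agent.P219.CH.Gen
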